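import Vale.Agent.P049.Final

namespace Vale.Agent.Results.P049.A_full

open Matrix

open Classical in
theorem result (d : ℕ) (hd : 3 ≤ d) : ∃ G : (n : ℕ) → SimpleGraph (Fin n),
    (∃ M : Turing.TM2ComputableInPolyTime (fun n : ℕ => List.replicate n true)
      (fun s : List Bool => s) (fun n => Vale.Agent.P049.code (G n)), ∀ k, Finite (M.tm.Γ k)) ∧
    ∃ n0 : ℕ, ∀ n ≥ n0, Even (d * n) → (G n).IsRegularOfDegree d ∧
      ∀ (lam : ℝ) (v : Fin n → ℝ), v ≠ 0 → ∑ i, v i = 0 →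
        (G n).adjMatrix ℝ *ᵥ v = lam • v → |lam| ≤ 2 * √((d : ℝ) - 1) :=
  Vale.Agent.P049.main_thm d hd

end Vale.Agent.Results.P049.A_full
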